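import Vale.Agent.P347.Main
import Vale.Agent.P347.LowerOne

/-!
The dimension exponent of well-conditioned log-concave sampling vanishes.
-/

namespace Vale.Agent.Results.P347.DimExponentZero

open Filter Topology Vale.Agent.P347

theorem result :
    (∀ ε : ℝ, 0 < ε → ∀ᶠ d : ℕ in atTop, ∃ (q : ℕ) (A : Algorithm d q),
      (q : ℝ) ≤ (d : ℝ) ^ ε ∧ A.Samples) ∧
    (∀ᶠ d : ℕ in atTop, 1 ≤ queryComplexity d) ∧
    Tendsto (fun d : ℕ => Real.log (queryComplexity d) / Real.log d) atTop (𝓝 0) ∧
    dimensionExponent = 0 := by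
  refine ⟨samplers, ?_, tendsto_exponent samplers, dimensionExponent_of samplers⟩
  filter_upwards [samplers 1 one_pos, eventually_ge_atTop 2] with d hd hd2
  obtain ⟨q, A, -, hA⟩ := hd
  exact one_le_queryComplexity hd2 ⟨q, A, hA⟩

end Vale.Agent.Results.P347.DimExponentZero
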